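import Vale.Agent.P270.MathlibUsed

open MeasureTheory Matrix

namespace Vale.Agent.P270

/-! ## Complex tori, abelian varieties and their line bundles -/

/-- A complex torus `ℂ^g / Λ`, given by `2g` periods which are linearly independent over `ℝ`. -/
structure Torus (g : ℕ) where
  per : Fin (2 * g) → Fin g → ℂ
  indep : ∀ x : Fin (2 * g) → ℝ, (∀ k, ∑ i, (x i : ℂ) * per i k = 0) → ∀ i, x i = 0

/-- The lattice vector with coordinates `u`. -/
noncomputable def Torus.vec {g : ℕ} (T : Torus g) (u : Fin (2 * g) → ℤ) (k : Fin g) : ℂ :=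
  ∑ i, (u i : ℂ) * T.per i k

/-- `T` is an abelian variety: there is a positive definite Hermitian form whose imaginary part
is integral on the lattice (a Riemann form). -/
def Torus.IsAbelian {g : ℕ} (T : Torus g) : Prop :=
  ∃ H : Matrix (Fin g) (Fin g) ℂ, H.IsHermitian ∧
    (∀ x : Fin g → ℂ, x ≠ 0 → 0 < (star x ⬝ᵥ (H *ᵥ x)).re) ∧
    ∀ i j, ∃ n : ℤ, (star (T.per i) ⬝ᵥ (H *ᵥ T.per j)).im = n

/-- A factor of automorphy `exp (affine function)`, i.e. a line bundle on the torus
(every line bundle on a torus has such a factor, by the theorem of Appell and Humbert). -/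
@[ext]
structure Factor {g : ℕ} (T : Torus g) where
  val : (Fin (2 * g) → ℤ) → (Fin g → ℂ) → ℂ
  exp_affine : ∀ u, ∃ (l : Fin g → ℂ) (c : ℂ), ∀ z, val u z = Complex.exp (∑ k, l k * z k + c)
  cocycle : ∀ u v z, val (u + v) z = val u (z + T.vec v) * val v z

namespace Factor

variable {g : ℕ} {T : Torus g}

theorem val_ne_zero (a : Factor T) (u : Fin (2 * g) → ℤ) (z : Fin g → ℂ) : a.val u z ≠ 0 := by
  obtain ⟨l, c, h⟩ := a.exp_affine u
  rw [h]
  exact Complex.exp_ne_zero _

/-- The trivial line bundle. -/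
instance : One (Factor T) where
  one :=
    { val := fun _ _ => 1
      exp_affine := fun _ => ⟨0, 0, fun z => by simp⟩
      cocycle := fun _ _ _ => by simp }

/-- The tensor product of line bundles. -/
instance : Mul (Factor T) where
  mul a b :=
    { val := fun u z => a.val u z * b.val u z
      exp_affine := fun u => by
        obtain ⟨l, c, h⟩ := a.exp_affine u
        obtain ⟨l', c', h'⟩ := b.exp_affine u
        refine ⟨l + l', c + c', fun z => ?_⟩
        rw [h, h', ← Complex.exp_add]
        congr 1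
        simp only [Pi.add_apply, add_mul, Finset.sum_add_distrib]
        ring
      cocycle := fun u v z => by
        rw [a.cocycle, b.cocycle]
        ring }

/-- The dual line bundle. -/
noncomputable instance : Inv (Factor T) where
  inv a :=
    { val := fun u z => (a.val u z)⁻¹
      exp_affine := fun u => by
        obtain ⟨l, c, h⟩ := a.exp_affine u
        refine ⟨-l, -c, fun z => ?_⟩
        rw [h, ← Complex.exp_neg]
        congr 1
        simp only [Pi.neg_apply, neg_mul, Finset.sum_neg_distrib]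
        ring
      cocycle := fun u v z => by
        rw [a.cocycle, mul_inv] }

@[simp] theorem one_val (u : Fin (2 * g) → ℤ) (z : Fin g → ℂ) : (1 : Factor T).val u z = 1 := rfl

@[simp] theorem mul_val (a b : Factor T) (u : Fin (2 * g) → ℤ) (z : Fin g → ℂ) :
    (a * b).val u z = a.val u z * b.val u z := rfl

@[simp] theorem inv_val (a : Factor T) (u : Fin (2 * g) → ℤ) (z : Fin g → ℂ) :
    (a⁻¹).val u z = (a.val u z)⁻¹ := rfl

/-- The group of line bundles on the torus. -/
noncomputable instance : CommGroup (Factor T) where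
  mul_assoc a b c := by ext u z; simp [mul_assoc]
  one_mul a := by ext u z; simp
  mul_one a := by ext u z; simp
  mul_comm a b := by ext u z; simp [mul_comm]
  inv_mul_cancel a := by ext u z; simp [val_ne_zero]

end Factor

/-! ## Smooth projective toric varieties -/

/-- `t` is stable for the action of `(ℂˣ)^s` on `ℂ^n` with the degrees `deg`, linearised by `amp`:
some monomial whose degree is a positive multiple of `amp` does not vanish at `t`. -/
def IsStable {n s : ℕ} (deg : Fin n → Fin s → ℤ) (amp : Fin s → ℤ) (t : Fin n → ℂ) : Prop :=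
  ∃ (k : ℕ) (χ : Fin n → ℕ), 0 < k ∧ (∀ j, ∑ i, (χ i : ℤ) * deg i j = k * amp j) ∧
    ∏ i, t i ^ χ i ≠ 0

/-- The Cox data of a smooth projective toric variety `F = (stable points of ℂ^n) / (ℂˣ)^s` with
homogeneous coordinates `t i` of degree `deg i ∈ ℤ^s = Pic F` and with an ample class `amp`. -/
structure ToricVariety (n s : ℕ) where
  deg : Fin n → Fin s → ℤ
  amp : Fin s → ℤ
  /-- `F` is not empty -/
  nonempty : ∃ t, IsStable deg amp t
  /-- `F` is projective: all degrees lie in an open half space -/
  projective : ∃ w : Fin s → ℤ, ∀ i, 0 < ∑ j, w j * deg i j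
  /-- `(ℂˣ)^s` acts freely on the stable points: the degrees of the nonvanishing coordinates
  generate `ℤ^s` -/
  free : ∀ t, IsStable deg amp t → ∀ a : Fin s → ℤ, ∃ c : Fin n → ℤ,
    (∀ i, t i = 0 → c i = 0) ∧ ∀ j, ∑ i, c i * deg i j = a j
  /-- every `t i = 0` is a divisor of `F` -/
  divisor : ∀ i, ∃ t, IsStable deg amp t ∧ t i = 0 ∧ ∀ j, j ≠ i → t j ≠ 0

/-! ## Toric bundles over abelian varieties -/

/-- The data of a toric bundle `X` over the abelian variety `T`, with fibre the smooth projective
toric variety `F`, twisted by arbitrary line bundles `L i` on `T`. -/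
structure ToricBundle (g n s : ℕ) where
  T : Torus g
  abelian : T.IsAbelian
  F : ToricVariety n s
  L : Fin n → Factor T

namespace ToricBundle

variable {g n s : ℕ} (X : ToricBundle g n s)

/-- The points `(z, t)` with `z ∈ ℂ^g` and `t ∈ ℂ^n` stable. -/
def dom : Set ((Fin g → ℂ) × (Fin n → ℂ)) := {y | IsStable X.F.deg X.F.amp y.2}

/-- The action of `Λ × (ℂˣ)^s` on `X.dom`, whose quotient is `X`. -/
noncomputable def act (u : Fin (2 * g) → ℤ) (c : Fin s → ℂˣ) (y : (Fin g → ℂ) × (Fin n → ℂ)) :
    (Fin g → ℂ) × (Fin n → ℂ) :=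
  (y.1 + X.T.vec u, fun i => (∏ j, (c j : ℂ) ^ X.F.deg i j) * (X.L i).val u y.1 * y.2 i)

/-- The group of line bundles on `X`: a class in `ℤ^s = Pic F` and a line bundle on `T`. -/
abbrev LineBundle := Multiplicative (Fin s → ℤ) × Factor X.T

variable {X}

/-- `f` is a holomorphic section of the line bundle `D`. -/
def IsSection (D : X.LineBundle) (f : (Fin g → ℂ) × (Fin n → ℂ) → ℂ) : Prop :=
  DifferentiableOn ℂ f X.dom ∧ ∀ u c, ∀ y ∈ X.dom,
    f (X.act u c y) = (∏ j, (c j : ℂ) ^ D.1.toAdd j) * D.2.val u y.1 * f y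

/-- `D` is generated by its global sections. -/
def IsGloballyGenerated (D : X.LineBundle) : Prop :=
  ∀ y ∈ X.dom, ∃ f, IsSection D f ∧ f y ≠ 0

/-- `D` is semiample: some positive multiple is generated by global sections. -/
def IsSemiample (D : X.LineBundle) : Prop :=
  ∃ k : ℕ, 0 < k ∧ IsGloballyGenerated (D ^ k)

/-- `D` is nef: for some line bundle `H`, all `D ^ k ⊗ H` are semiample. (By Kleiman's theorem this
is equivalent to `D · C ≥ 0` for all curves `C`; for `→` take `H` ample, for `←` divide the degree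
of `D ^ k ⊗ H` on `C` by `k`.) -/
def IsNef (D : X.LineBundle) : Prop :=
  ∃ H : X.LineBundle, ∀ k : ℕ, 0 < k → IsSemiample (D ^ k * H)

/-- `D` is pseudo-effective: for some line bundle `H`, all `D ^ k ⊗ H` have a positive multiple with
a nonzero section. -/
def IsPseudoEffective (D : X.LineBundle) : Prop :=
  ∃ H : X.LineBundle, ∀ k : ℕ, 0 < k → ∃ l : ℕ, 0 < l ∧
    ∃ f, IsSection ((D ^ k * H) ^ l) f ∧ ∃ y ∈ X.dom, f y ≠ 0

/-- Numerical equivalence: both differences are nef, i.e. `D · C = D' · C` for all curves. -/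
def NumEquiv (D D' : X.LineBundle) : Prop := IsNef (D / D') ∧ IsNef (D' / D)

/-- `D` is numerically semiample: some positive multiple is numerically equivalent to a semiample
line bundle. -/
def IsNumSemiample (D : X.LineBundle) : Prop :=
  ∃ k : ℕ, 0 < k ∧ ∃ D', IsSemiample D' ∧ NumEquiv (D ^ k) D'

variable (X)

/-- The canonical bundle of `X`: the form `dz₁ ∧ ... ∧ dz_g ∧ dt₁ ∧ ... ∧ dt_n` is multiplied by
`∏ i, c ^ deg i * L i` under the action, so that `K_X` is minus the sum of the divisors `t i = 0`. -/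
noncomputable def canonical : X.LineBundle :=
  (Multiplicative.ofAdd fun j => -∑ i, X.F.deg i j, (∏ i, X.L i)⁻¹)

/-- An effective `ℚ`-divisor `B = (1 / m) div σ` on `X`, where `σ` is a nonzero section. -/
structure Boundary where
  m : ℕ
  m_pos : 0 < m
  bdl : X.LineBundle
  sec : (Fin g → ℂ) × (Fin n → ℂ) → ℂ
  isSection : IsSection bdl sec
  ne_zero : ∃ y ∈ X.dom, sec y ≠ 0

variable {X}

namespace Boundary

variable (B : X.Boundary)

/-- `(X, B)` is klt: `|σ| ^ (-2 / m)` is locally integrable. -/
def IsKlt : Prop :=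
  ∀ y ∈ X.dom, ∃ U ∈ nhds y, ∫⁻ x in U, ‖B.sec x‖ₑ ^ (-(2 / B.m : ℝ)) < ⊤

/-- The line bundle `m (K_X + B)`. -/
noncomputable def logCanonical : X.LineBundle := X.canonical ^ B.m * B.bdl

end Boundary

end ToricBundle

end Vale.Agent.P270
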