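import Mathlib.Algebra.Order.Star.Real
import Mathlib.Analysis.Calculus.FDeriv.Pow
import Mathlib.Analysis.Complex.CauchyIntegral
import Mathlib.Analysis.Complex.Liouville
import Mathlib.Analysis.Complex.Polynomial.Basic
import Mathlib.Analysis.InnerProductSpace.Calculus
import Mathlib.Analysis.SpecialFunctions.ExpDeriv
import Mathlib.Data.Int.Star
import Mathlib.LinearAlgebra.Matrix.PosDef
import Mathlib.MeasureTheory.Measure.Lebesgue.VolumeOfBalls
import Mathlib.Algebra.MvPolynomial.Funext
import Mathlib.Analysis.Complex.AbsMax
import Mathlib.Analysis.Complex.TaylorSeries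
import Mathlib.LinearAlgebra.Lagrange
import Mathlib.Tactic

/-! The part of Mathlib that the development of this folder uses. -/
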